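import Mathlib.AlgebraicTopology.SimplicialSet.Subdivision
import Mathlib.AlgebraicTopology.SimplicialSet.Subcomplex

/-!
# Cells of the subdivision

For a simplicial set `X` and a simplex `x`, `sdCell x` is the corresponding map from the
subdivided simplex to `sd X`.  These maps are natural, determine maps out of `sd X` and are
jointly surjective.
-/

open CategoryTheory Opposite

namespace Vale.Agent.P213.Sd2

noncomputable section

variable {X Y : SSet.{0}}

/-- The map from the subdivided simplex to `sd X` attached to a simplex of `X`. -/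
def sdCell {n : SimplexCategory} (x : X.obj (op n)) :
    SimplexCategory.sd.{0}.obj n ⟶ SSet.sd.obj X :=
  SSet.stdSimplex.sdIso.inv.app n ≫ SSet.sd.map (SSet.yonedaEquiv.symm x)

lemma sdCell_naturality {n p : SimplexCategory} (f : n ⟶ p) (x : X.obj (op p)) :
    SimplexCategory.sd.map f ≫ sdCell x = sdCell (X.map f.op x) := by
  unfold sdCell
  rw [← Category.assoc, SSet.stdSimplex.sdIso.inv.naturality, Category.assoc,
    ← SSet.yonedaEquiv_symm_naturality_left]
  simp only [Functor.map_comp]
  rfl

lemma sdCell_map {n : SimplexCategory} (x : X.obj (op n)) (g : X ⟶ Y) :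
    sdCell x ≫ SSet.sd.map g = sdCell (g.app _ x) := by
  unfold sdCell
  rw [Category.assoc, ← Functor.map_comp, SSet.yonedaEquiv_symm_comp]

set_option backward.isDefEq.respectTransparency false in
lemma homEquiv_app (f : SSet.sd.obj X ⟶ Y) {n : SimplexCategory} (x : X.obj (op n)) :
    (SSet.sdExAdjunction.homEquiv X Y f).app (op n) x = ULift.up (sdCell x ≫ f) := by
  rw [sdCell, Category.assoc]
  exact Presheaf.uliftYonedaAdjunction_homEquiv_app.{0}
    (SSet.stdSimplex.{0}.leftKanExtension SimplexCategory.sd.{0})
    (SSet.stdSimplex.{0}.leftKanExtensionUnit SimplexCategory.sd.{0}) f x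

lemma sd_hom_ext {f g : SSet.sd.obj X ⟶ Y}
    (h : ∀ (n : SimplexCategory) (x : X.obj (op n)), sdCell x ≫ f = sdCell x ≫ g) : f = g := by
  apply (SSet.sdExAdjunction.homEquiv X Y).injective
  apply NatTrans.ext
  funext n
  apply ConcreteCategory.hom_ext
  intro x
  exact (homEquiv_app f x).trans ((congrArg ULift.up (h _ x)).trans (homEquiv_app g x).symm)

/-- A map out of `sd X` from a natural family of maps on the cells. -/
def sdDesc (c : ∀ n : SimplexCategory, X.obj (op n) → (SimplexCategory.sd.{0}.obj n ⟶ Y))
    (hc : ∀ (n p : SimplexCategory) (f : n ⟶ p) (x : X.obj (op p)),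
      SimplexCategory.sd.map f ≫ c p x = c n (X.map f.op x)) :
    SSet.sd.obj X ⟶ Y :=
  (SSet.sdExAdjunction.homEquiv X Y).symm
    { app := fun n => ↾fun x => ULift.up (c n.unop x)
      naturality := fun n p f => by
        ext x
        exact congrArg ULift.up (hc p.unop n.unop f.unop x).symm }

lemma sdCell_desc (c : ∀ n : SimplexCategory, X.obj (op n) → (SimplexCategory.sd.{0}.obj n ⟶ Y))
    (hc : ∀ (n p : SimplexCategory) (f : n ⟶ p) (x : X.obj (op p)),
      SimplexCategory.sd.map f ≫ c p x = c n (X.map f.op x))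
    {n : SimplexCategory} (x : X.obj (op n)) :
    sdCell x ≫ sdDesc c hc = c n x := by
  have h := homEquiv_app (sdDesc c hc) x
  rw [sdDesc, Equiv.apply_symm_apply] at h
  exact (congrArg ULift.down h).symm

/-- The cells of `sd X` are jointly surjective. -/
lemma exists_sdCell {k : SimplexCategoryᵒᵖ} (z : (SSet.sd.obj X).obj k) :
    ∃ (n : SimplexCategory) (x : X.obj (op n)) (τ : (SimplexCategory.sd.{0}.obj n).obj k),
      (sdCell x).app k τ = z := by
  let S : (SSet.sd.obj X).Subcomplex :=
    { obj := fun j => {w | ∃ (n : SimplexCategory) (x : X.obj (op n))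
          (τ : (SimplexCategory.sd.{0}.obj n).obj j), (sdCell x).app j τ = w}
      map := by
        rintro j j' g w ⟨n, x, τ, rfl⟩
        exact ⟨n, x, _, NatTrans.naturality_apply (sdCell x) g τ⟩ }
  let c : ∀ n : SimplexCategory, X.obj (op n) → (SimplexCategory.sd.{0}.obj n ⟶ (S : SSet)) :=
    fun n x => SSet.Subcomplex.lift (sdCell x) (by
      rintro j w ⟨τ, rfl⟩
      exact ⟨n, x, τ, rfl⟩)
  have hc : ∀ (n p : SimplexCategory) (f : n ⟶ p) (x : X.obj (op p)),
      SimplexCategory.sd.map f ≫ c p x = c n (X.map f.op x) := fun n p f x => by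
    rw [← cancel_mono S.ι]
    exact sdCell_naturality f x
  have h : sdDesc c hc ≫ S.ι = 𝟙 _ := sd_hom_ext fun n x => by
    rw [← Category.assoc, sdCell_desc, Category.comp_id]
    rfl
  have hz := ((sdDesc c hc).app k z).2
  have h' := ConcreteCategory.congr_hom (congr_app h k) z
  simp only [NatTrans.comp_app, NatTrans.id_app, types_comp_apply, types_id_apply] at h'
  rw [show ((sdDesc c hc).app k z).val = z from h'] at hz
  exact hz

end

end Vale.Agent.P213.Sd2
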