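import Mathlib.AlgebraicTopology.SimplicialSet.NerveNondegenerate
import Mathlib.Data.Fintype.Sort
import Mathlib.Data.Set.Card
import Vale.Agent.P213.Sd2.Cells

/-!
# Subdivision of simplicial sets embedded in nerves of posets

For a poset `Q`, `kappa Q : sd (nerve Q) ⟶ nerve (Ch Q)` is the last vertex free comparison with the
nerve of the poset of nonempty finite chains.  If `i : X ⟶ nerve Q` is a monomorphism, so is
`kappaOf i : sd X ⟶ nerve (Ch Q)`, and its image consists of the simplices all whose vertices are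
supports of simplices of `X`.
-/

open CategoryTheory Opposite Simplicial

namespace Vale.Agent.P213.Sd2

noncomputable section

/-- Nonempty finite chains of a poset. -/
abbrev Ch (Q : Type) [PartialOrder Q] : Type := PartialOrder.NonemptyFiniteChains Q

variable {Q R S : Type} [PartialOrder Q] [PartialOrder R] [PartialOrder S]

/-- Functoriality of `Ch`. -/
abbrev chMap (f : Q →o R) : Ch Q →o Ch R := PartialOrder.NonemptyFiniteChains.orderHomMap f

lemma mem_chMap {f : Q →o R} {C : Ch Q} {r : R} :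
    r ∈ (chMap f C).finset ↔ ∃ q ∈ C.finset, f q = r :=
  PartialOrder.NonemptyFiniteChains.mem_map_iff C f r

lemma chMap_comp (f : R →o S) (g : Q →o R) (C : Ch Q) :
    chMap (f.comp g) C = chMap f (chMap g C) := by
  ext s
  simp

lemma chMap_injective {f : Q →o R} (hf : Function.Injective f) : Function.Injective (chMap f) := by
  classical
  intro C D h
  ext q
  have : f q ∈ (chMap f C).finset ↔ f q ∈ (chMap f D).finset := by rw [h]
  simpa [mem_chMap, hf.eq_iff] using this

/-- The map of nerves induced by a monotone map. -/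
abbrev nmap (f : Q →o R) : nerve Q ⟶ nerve R := nerveMap f.monotone.functor

lemma hom_to_nerve_ext {X : SSet.{0}} {f g : X ⟶ nerve Q}
    (h : ∀ k (z : X.obj k) (j : Fin (k.unop.len + 1)), (f.app k z).obj j = (g.app k z).obj j) :
    f = g := by
  apply NatTrans.ext
  funext k
  apply ConcreteCategory.hom_ext
  intro z
  exact nerve.ext_of_isThin (funext (h k z))

/-- A simplex of a nerve as a monotone map. -/
def toOrd {n : SimplexCategory} (x : (nerve Q).obj (op n)) : ULift.{0} (Fin (n.len + 1)) →o Q where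
  toFun a := x.obj a.down
  monotone' _ _ h := x.monotone h

lemma toOrd_apply {n : SimplexCategory} (x : (nerve Q).obj (op n)) (a : Fin (n.len + 1)) :
    toOrd x (ULift.up a) = x.obj a := rfl

variable (Q) in
/-- The comparison `sd (nerve Q) ⟶ nerve (Ch Q)`. -/
def kappa : SSet.sd.obj (nerve Q) ⟶ nerve (Ch Q) :=
  sdDesc (fun _ x => nmap (chMap (toOrd x))) fun n p f x => by
    apply hom_to_nerve_ext
    intro k z j
    exact (chMap_comp (toOrd x) (SimplexCategory.toPartOrd.{0}.map f).hom (z.obj j)).symm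

variable {X Y : SSet.{0}}

/-- The map `sd X ⟶ nerve (Ch Q)` induced by `i : X ⟶ nerve Q`. -/
def kappaOf (i : X ⟶ nerve Q) : SSet.sd.obj X ⟶ nerve (Ch Q) := SSet.sd.map i ≫ kappa Q

lemma sdCell_kappaOf (i : X ⟶ nerve Q) {n : SimplexCategory} (x : X.obj (op n)) :
    sdCell x ≫ kappaOf i = nmap (chMap (toOrd (i.app _ x))) := by
  rw [kappaOf, ← Category.assoc, sdCell_map, kappa]
  exact sdCell_desc _ _ _

lemma kappaOf_obj (i : X ⟶ nerve Q) {n : SimplexCategory} (x : X.obj (op n))
    {k : SimplexCategoryᵒᵖ} (τ : (SimplexCategory.sd.{0}.obj n).obj k)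
    (j : Fin (k.unop.len + 1)) :
    ((kappaOf i).app k ((sdCell x).app k τ)).obj j = chMap (toOrd (i.app _ x)) (τ.obj j) := by
  have h := ConcreteCategory.congr_hom (congr_app (sdCell_kappaOf i x) k) τ
  exact congrArg (fun w : (nerve (Ch Q)).obj k => w.obj j) h

lemma kappaOf_comp (f : X ⟶ Y) (i : Y ⟶ nerve Q) :
    kappaOf (f ≫ i) = SSet.sd.map f ≫ kappaOf i := by
  rw [kappaOf, kappaOf, Functor.map_comp, Category.assoc]

lemma kappaOf_nmap (i : X ⟶ nerve Q) (f : Q →o R) :
    kappaOf (i ≫ nmap f) = kappaOf i ≫ nmap (chMap f) := by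
  apply sd_hom_ext
  intro n x
  rw [← Category.assoc, sdCell_kappaOf, sdCell_kappaOf]
  apply hom_to_nerve_ext
  intro k z j
  exact chMap_comp f (toOrd (i.app _ x)) (z.obj j)

/-- Pulling a simplex of `nerve (Ch Q)` back along a monotone map from a simplex. -/
lemma exists_pullback {n : SimplexCategory} (f : ULift.{0} (Fin (n.len + 1)) →o Q)
    {k : SimplexCategoryᵒᵖ} (σ : (nerve (Ch Q)).obj k)
    (h : ∀ q ∈ (σ.obj (Fin.last k.unop.len)).finset, q ∈ Set.range f) :
    ∃ τ : (SimplexCategory.sd.{0}.obj n).obj k, ∀ j : Fin (k.unop.len + 1),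
      chMap f (τ.obj j) = σ.obj j ∧ ∀ a, f a ∈ (σ.obj j).finset → a ∈ (τ.obj j).finset := by
  classical
  have hr : ∀ (j : Fin (k.unop.len + 1)), ∀ q ∈ (σ.obj j).finset, ∃ a, f a = q := fun j q hq =>
    h q (σ.monotone (Fin.le_last j) hq)
  let T : Fin (k.unop.len + 1) → Ch (ULift.{0} (Fin (n.len + 1))) := fun j =>
    { finset := Finset.univ.filter fun a => f a ∈ (σ.obj j).finset
      nonempty := by
        obtain ⟨q, hq⟩ := (σ.obj j).nonempty
        obtain ⟨a, rfl⟩ := hr j q hq
        exact ⟨a, by simp [hq]⟩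
      comparable := fun a b => le_total a.1.down b.1.down }
  have hT : Monotone T := fun j j' hj => by
    intro a ha
    simp only [T, Finset.mem_filter, Finset.mem_univ, true_and] at ha ⊢
    exact σ.monotone hj ha
  refine ⟨hT.functor, fun j => ⟨?_, fun a ha => ?_⟩⟩
  · ext q
    rw [mem_chMap]
    constructor
    · rintro ⟨a, ha, rfl⟩
      exact (Finset.mem_filter.1 ha).2
    · intro hq
      obtain ⟨a, rfl⟩ := hr j q hq
      exact ⟨a, Finset.mem_filter.2 ⟨Finset.mem_univ _, hq⟩, rfl⟩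
  · exact Finset.mem_filter.2 ⟨Finset.mem_univ _, ha⟩

/-- Every simplex of `sd X` comes from a nondegenerate simplex of `X` and a simplex of the
subdivided simplex whose last vertex is the whole simplex. -/
lemma exists_normal {k : SimplexCategoryᵒᵖ} (z : (SSet.sd.obj X).obj k) :
    ∃ (p : ℕ) (x : X _⦋p⦌) (τ : (SimplexCategory.sd.{0}.obj ⦋p⦌).obj k),
      x ∈ X.nonDegenerate p ∧ (∀ a, a ∈ (τ.obj (Fin.last k.unop.len)).finset) ∧
        (sdCell x).app k τ = z := by
  classical
  obtain ⟨n, x, τ, rfl⟩ := exists_sdCell z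
  let top := (τ.obj (Fin.last k.unop.len)).finset
  let T : Finset (Fin (n.len + 1)) := top.image ULift.down
  obtain ⟨q, hq⟩ : ∃ q, T.card = q + 1 := ⟨T.card - 1, by
    have : 0 < T.card := Finset.card_pos.2 ((τ.obj _).nonempty.image _)
    omega⟩
  let ι : ⦋q⦌ ⟶ n := SimplexCategory.Hom.mk (T.orderEmbOfFin hq).toOrderHom
  obtain ⟨τ', hτ'⟩ := exists_pullback (n := ⦋q⦌) (SimplexCategory.toPartOrd.{0}.map ι).hom τ
    (by
      intro a ha
      have : a.down ∈ Set.range (T.orderEmbOfFin hq) := by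
        rw [Finset.range_orderEmbOfFin]
        exact Finset.mem_image_of_mem _ ha
      obtain ⟨b, hb⟩ := this
      exact ⟨ULift.up b, ULift.ext _ _ hb⟩)
  have hzero : (SimplexCategory.sd.map ι).app k τ' = τ :=
    nerve.ext_of_isThin (funext fun j => (hτ' j).1)
  have htop : ∀ a, a ∈ (τ'.obj (Fin.last k.unop.len)).finset := fun a => by
    refine (hτ' _).2 a ?_
    have hm : (T.orderEmbOfFin hq) a.down ∈ T := Finset.orderEmbOfFin_mem _ _ _
    obtain ⟨b, hb, hb'⟩ := Finset.mem_image.1 hm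
    have hb'' : b = (SimplexCategory.toPartOrd.{0}.map ι).hom a := ULift.ext _ _ hb'
    exact hb'' ▸ hb
  obtain ⟨m, ε, hε, y, hy⟩ := X.exists_nonDegenerate (X.map ι.op x : X _⦋q⦌)
  refine ⟨m, y.1, (SimplexCategory.sd.map ε).app k τ', y.2, fun a => ?_, ?_⟩
  · obtain ⟨b, hb⟩ := SimplexCategory.epi_iff_surjective.1 hε a.down
    exact mem_chMap.2 ⟨ULift.up b, htop _, ULift.ext _ _ hb⟩
  · conv_rhs => rw [← hzero]
    have h1 := ConcreteCategory.congr_hom (congr_app (sdCell_naturality ε y.1) k) τ'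
    have h2 := ConcreteCategory.congr_hom (congr_app (sdCell_naturality ι x) k) τ'
    rw [← hy] at h1
    exact h1.trans h2.symm

/-- The supports of the simplices of `X`. -/
def faces (i : X ⟶ nerve Q) : Set (Ch Q) :=
  {C | ∃ (p : ℕ) (x : X _⦋p⦌), Set.range (i.app _ x).obj = ↑C.finset}

/-- The simplices of a nerve all whose vertices lie in a given set. -/
def vertsIn (A : Set Q) : (nerve Q).Subcomplex where
  obj k := {σ | ∀ j : Fin (k.unop.len + 1), σ.obj j ∈ A}
  map _ _ hσ _ := hσ _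

/-- The chains contained in a set. -/
def chainsIn (A : Set Q) : Set (Ch Q) := {C | ∀ q ∈ C.finset, q ∈ A}

lemma range_support (i : X ⟶ nerve Q) {p : ℕ} (x : X _⦋p⦌) {k : SimplexCategoryᵒᵖ}
    (τ : (SimplexCategory.sd.{0}.obj ⦋p⦌).obj k)
    (hτ : ∀ a, a ∈ (τ.obj (Fin.last k.unop.len)).finset) :
    Set.range (i.app _ x).obj =
      ↑(((kappaOf i).app k ((sdCell x).app k τ)).obj (Fin.last k.unop.len)).finset := by
  ext q
  rw [kappaOf_obj, Finset.mem_coe]
  refine Iff.trans ?_ mem_chMap.symm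
  exact ⟨fun ⟨a, ha⟩ => ⟨ULift.up a, hτ _, ha⟩, fun ⟨a, _, ha⟩ => ⟨a.down, ha⟩⟩

lemma isLowerSet_faces (i : X ⟶ nerve Q) : IsLowerSet (faces i) := by
  classical
  rintro C D hDC ⟨p, x, hx⟩
  let T : Finset (Fin (p + 1)) := Finset.univ.filter fun a => (i.app _ x).obj a ∈ D.finset
  have hT : T.Nonempty := by
    obtain ⟨d, hd⟩ := D.nonempty
    obtain ⟨a, ha⟩ : d ∈ Set.range (i.app _ x).obj := by rw [hx]; exact hDC hd
    exact ⟨a, Finset.mem_filter.2 ⟨Finset.mem_univ _, ha ▸ hd⟩⟩
  obtain ⟨q, hq⟩ : ∃ q, T.card = q + 1 :=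
    ⟨T.card - 1, (Nat.succ_pred_eq_of_pos hT.card_pos).symm⟩
  let g : ⦋q⦌ ⟶ ⦋p⦌ := SimplexCategory.Hom.mk (T.orderEmbOfFin hq).toOrderHom
  refine ⟨q, X.map g.op x, ?_⟩
  rw [NatTrans.naturality_apply i g.op x]
  ext d
  constructor
  · rintro ⟨b, rfl⟩
    exact (Finset.mem_filter.1 (Finset.orderEmbOfFin_mem T hq b)).2
  · intro hd
    obtain ⟨a, ha⟩ : d ∈ Set.range (i.app _ x).obj := by rw [hx]; exact hDC hd
    obtain ⟨b, hb⟩ : a ∈ Set.range (T.orderEmbOfFin hq) := by
      rw [Finset.range_orderEmbOfFin]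
      exact Finset.mem_filter.2 ⟨Finset.mem_univ _, ha ▸ hd⟩
    exact ⟨b, (congrArg (i.app _ x).obj hb).trans ha⟩

/-- The image of `kappaOf i`. -/
theorem range_kappaOf (i : X ⟶ nerve Q) :
    SSet.Subcomplex.range (kappaOf i) = vertsIn (faces i) := by
  apply le_antisymm
  · rintro k σ ⟨z, rfl⟩
    obtain ⟨p, x, τ, -, hτ, rfl⟩ := exists_normal z
    intro j
    exact isLowerSet_faces i (((kappaOf i).app k _).monotone (Fin.le_last j))
      ⟨p, x, range_support i x τ hτ⟩
  · intro k σ hσ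
    obtain ⟨p, x, hx⟩ := hσ (Fin.last k.unop.len)
    obtain ⟨τ, hτ⟩ := exists_pullback (n := ⦋p⦌) (toOrd (i.app _ x)) σ (fun q hq => by
      obtain ⟨a, ha⟩ : q ∈ Set.range (i.app _ x).obj := by rw [hx]; exact hq
      exact ⟨ULift.up a, ha⟩)
    exact ⟨(sdCell x).app k τ,
      nerve.ext_of_isThin (funext fun j => (kappaOf_obj i x τ j).trans (hτ j).1)⟩

/-- `kappaOf` preserves monomorphisms. -/
theorem mono_kappaOf (i : X ⟶ nerve Q) [Mono i] : Mono (kappaOf i) := by
  have : ∀ k, Mono ((kappaOf i).app k) := by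
    intro k
    rw [mono_iff_injective]
    intro z₁ z₂ h
    obtain ⟨p, x₁, τ₁, hx₁, hτ₁, rfl⟩ := exists_normal z₁
    obtain ⟨p', x₂, τ₂, hx₂, hτ₂, rfl⟩ := exists_normal z₂
    have hs₁ : StrictMono (i.app _ x₁).obj :=
      (PartialOrder.mem_nerve_nonDegenerate_iff_strictMono _).1
        ((SSet.nonDegenerate_iff_of_mono i x₁).2 hx₁)
    have hs₂ : StrictMono (i.app _ x₂).obj :=
      (PartialOrder.mem_nerve_nonDegenerate_iff_strictMono _).1
        ((SSet.nonDegenerate_iff_of_mono i x₂).2 hx₂)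
    have hr : Set.range (i.app _ x₁).obj = Set.range (i.app _ x₂).obj := by
      rw [range_support i x₁ τ₁ hτ₁, range_support i x₂ τ₂ hτ₂, h]
    obtain rfl : p = p' := by
      have h1 := congrArg Set.ncard hr
      rw [← Set.image_univ, ← Set.image_univ, Set.ncard_image_of_injective _ hs₁.injective,
        Set.ncard_image_of_injective _ hs₂.injective, Set.ncard_univ, Set.ncard_univ] at h1
      simpa using h1
    obtain rfl : x₁ = x₂ :=
      (mono_iff_injective _).1 inferInstance (nerve.ext_of_isThin ((hs₁.range_inj hs₂).1 hr))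
    have hinj : Function.Injective (toOrd (i.app _ x₁)) := fun a b hab =>
      ULift.ext _ _ (hs₁.injective hab)
    have hτ : τ₁ = τ₂ := nerve.ext_of_isThin (funext fun j => chMap_injective hinj (by
      have := congrArg (fun w : (nerve (Ch Q)).obj k => w.obj j) h
      simpa only [kappaOf_obj] using this))
    rw [hτ]
  exact NatTrans.mono_of_mono_app _

/-- Every chain is the range of a simplex of the nerve. -/
lemma exists_enum (C : Ch Q) :
    ∃ (p : ℕ) (w : (nerve Q).obj (op ⦋p⦌)), Set.range w.obj = ↑C.finset := by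
  classical
  let _ : LinearOrder C.finset :=
    { Subtype.partialOrder _ with
      le_total := C.comparable
      toDecidableLE := Classical.decRel _ }
  obtain ⟨p, hp⟩ : ∃ p, Fintype.card C.finset = p + 1 := ⟨C.finset.card - 1, by
    have := Finset.card_pos.2 C.nonempty
    rw [Fintype.card_coe]
    omega⟩
  let e : Fin (p + 1) ≃o C.finset := monoEquivOfFin C.finset hp
  have hm : Monotone fun a => (e a : Q) := fun a b hab => e.monotone hab
  refine ⟨p, hm.functor, ?_⟩
  ext q
  exact ⟨fun ⟨a, ha⟩ => ha ▸ (e a).2, fun hq => ⟨e.symm ⟨q, hq⟩, by simp⟩⟩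

lemma faces_eq_chainsIn (i : X ⟶ nerve Q) (A : Set Q)
    (h : SSet.Subcomplex.range i = vertsIn A) : faces i = chainsIn A := by
  ext C
  constructor
  · rintro ⟨p, x, hx⟩ q hq
    obtain ⟨a, rfl⟩ : q ∈ Set.range (i.app _ x).obj := by rw [hx]; exact hq
    have hmem : i.app _ x ∈ (SSet.Subcomplex.range i).obj _ := ⟨x, rfl⟩
    rw [h] at hmem
    exact hmem a
  · intro hC
    obtain ⟨p, w, hw⟩ := exists_enum C
    have hwA : w ∈ (vertsIn A).obj (op ⦋p⦌) := fun j =>
      hC _ (Finset.mem_coe.1 (hw ▸ Set.mem_range_self j))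
    rw [← h] at hwA
    obtain ⟨x, hx⟩ := hwA
    exact ⟨p, x, by rw [hx]; exact hw⟩

end

end Vale.Agent.P213.Sd2
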