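import Mathlib.AlgebraicTopology.SimplicialSet.Boundary
import Mathlib.AlgebraicTopology.SimplicialSet.Horn
import Vale.Agent.P213.Sd2.Kappa

/-!
# The double subdivision of subcomplexes of a standard simplex

`Sd² Δ[m]` is the nerve of the poset `P m` of chains of nonempty subsets of `{0, …, m}`, and for a
subcomplex `A` (for example a boundary or a horn) `Sd² A ⟶ Sd² Δ[m]` is the nerve of the inclusion
of the sieve `sieve A`, which satisfies the gluing condition `sieve_max`.
-/

open CategoryTheory Opposite Simplicial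

namespace Vale.Agent.P213.Sd2

noncomputable section

/-- The linearly ordered set `{0, …, m}`. -/
abbrev L (m : ℕ) : Type := ULift.{0} (Fin (m + 1))

/-- Nonempty chains of nonempty subsets of `{0, …, m}`. -/
abbrev P (m : ℕ) : Type := Ch (Ch (L m))

instance {Q : Type} [PartialOrder Q] [Finite Q] : Finite (Ch Q) :=
  have : Fintype Q := Fintype.ofFinite Q
  Finite.of_injective PartialOrder.NonemptyFiniteChains.finset fun _ _ h => by ext1; exact h

instance (m : ℕ) : Finite (P m) := inferInstance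

/-- `Δ[m] ≅ nerve (L m)`. -/
def deltaIso (n : SimplexCategory) :
    SSet.stdSimplex.{0}.obj n ≅ nerve (L n.len) :=
  NatIso.ofComponents (fun k => Equiv.toIso
    { toFun := fun x => Monotone.functor (f := fun a => ULift.up ((SSet.stdSimplex.objEquiv x).toOrderHom a))
        (fun _ _ h => (SSet.stdSimplex.objEquiv x).toOrderHom.monotone h)
      invFun := fun σ => SSet.stdSimplex.objEquiv.symm (SimplexCategory.Hom.mk
        ⟨fun a => (σ.obj a).down, fun _ _ h => σ.monotone h⟩)
      left_inv := fun x => SSet.stdSimplex.objEquiv.injective (by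
        refine (Equiv.apply_symm_apply _ _).trans ?_
        ext a : 3
        rfl)
      right_inv := fun σ => nerve.ext_of_isThin (C := L n.len) (funext fun a => by
        apply ULift.ext
        simp
        rfl) }) fun f => by
    apply ConcreteCategory.hom_ext
    intro x
    refine nerve.ext_of_isThin (C := L n.len) (funext fun a => ULift.ext _ _ ?_)
    simp
    rfl

lemma deltaIso_naturality {n p : SimplexCategory} (f : n ⟶ p) :
    SSet.stdSimplex.map f ≫ (deltaIso p).hom =
      (deltaIso n).hom ≫ nmap (SimplexCategory.toPartOrd.{0}.map f).hom :=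
  hom_to_nerve_ext fun k x j => ULift.ext _ _ (by simp [deltaIso]; rfl)

lemma range_eq_vertsIn_univ {X : SSet.{0}} {Q : Type} [PartialOrder Q] (i : X ⟶ nerve Q)
    [IsIso i] : SSet.Subcomplex.range i = vertsIn Set.univ := by
  apply le_antisymm
  · intro k σ _ j
    trivial
  · intro k σ _
    exact ⟨(inv i).app k σ, by
      rw [← NatTrans.comp_app_apply, IsIso.inv_hom_id]
      rfl⟩

lemma isIso_kappaOf {X : SSet.{0}} {Q : Type} [PartialOrder Q] (i : X ⟶ nerve Q) [IsIso i] :
    IsIso (kappaOf i) := by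
  have := mono_kappaOf i
  have hr : SSet.Subcomplex.range (kappaOf i) = ⊤ := by
    rw [range_kappaOf, faces_eq_chainsIn i Set.univ (range_eq_vertsIn_univ i)]
    ext k σ
    exact ⟨fun _ => trivial, fun _ _ _ _ => trivial⟩
  have : Epi (kappaOf i) := (Subfunctor.epi_iff_range_eq_top _).2 hr
  exact isIso_of_mono_of_epi _

/-- The map `Sd² X ⟶ nerve (Ch (Ch Q))`. -/
abbrev kappaOf₂ {X : SSet.{0}} {Q : Type} [PartialOrder Q] (i : X ⟶ nerve Q) :
    SSet.sd.obj (SSet.sd.obj X) ⟶ nerve (Ch (Ch Q)) :=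
  kappaOf (kappaOf i)

instance (n : SimplexCategory) : IsIso (kappaOf₂ (deltaIso n).hom) :=
  have := isIso_kappaOf (deltaIso n).hom
  isIso_kappaOf _

/-- `Sd² Δ[n] ≅ nerve (P n)`. -/
def sd2Iso (n : SimplexCategory) :
    SSet.sd.obj (SSet.sd.obj (SSet.stdSimplex.obj n)) ≅ nerve (P n.len) :=
  asIso (kappaOf₂ (deltaIso n).hom)

/-- The functor `n ↦ nerve (P n)`. -/
def nerveP : SimplexCategory ⥤ SSet.{0} :=
  SimplexCategory.toPartOrd.{0} ⋙ PartOrd.nonemptyFiniteChainsFunctor ⋙
    PartOrd.nonemptyFiniteChainsFunctor ⋙ PartOrd.nerveFunctor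

lemma sd2Iso_naturality {n p : SimplexCategory} (f : n ⟶ p) :
    SSet.sd.map (SSet.sd.map (SSet.stdSimplex.map f)) ≫ (sd2Iso p).hom =
      (sd2Iso n).hom ≫ nmap (chMap (chMap (SimplexCategory.toPartOrd.{0}.map f).hom)) := by
  simp only [sd2Iso, asIso_hom, kappaOf₂]
  rw [← kappaOf_comp, ← kappaOf_comp, deltaIso_naturality]
  exact (congrArg kappaOf (kappaOf_nmap _ _)).trans (kappaOf_nmap _ _)

/-- `Sd² Δ[n] ≅ nerve (P n)`, naturally in `n`. -/
def sd2NatIso : SSet.stdSimplex ⋙ SSet.sd ⋙ SSet.sd ≅ nerveP :=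
  NatIso.ofComponents sd2Iso fun f => sd2Iso_naturality f

variable {n : SimplexCategory} (A : (SSet.stdSimplex.{0}.obj n).Subcomplex)

/-- The sieve of `P n` cut out by a subcomplex: the chains all of whose members lie in it. -/
def sieve : Set (P n.len) := chainsIn (faces (A.ι ≫ (deltaIso n).hom))

lemma isLowerSet_sieve : IsLowerSet (sieve A) := fun _ _ h hC q hq => hC q (h hq)

/-- Below any element the sieve is empty or has a maximum. -/
lemma sieve_max (T : P n.len) :
    (∀ x ∈ sieve A, ¬x ≤ T) ∨ ∃ M, IsGreatest {x | x ∈ sieve A ∧ x ≤ T} M := by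
  classical
  by_cases h : (T.finset.filter fun q => q ∈ faces (A.ι ≫ (deltaIso n).hom)).Nonempty
  · refine Or.inr ⟨⟨_, h, fun a b => T.comparable ⟨a.1, (Finset.mem_filter.1 a.2).1⟩
      ⟨b.1, (Finset.mem_filter.1 b.2).1⟩⟩, ⟨?_, ?_⟩, ?_⟩
    · exact fun q hq => (Finset.mem_filter.1 hq).2
    · exact fun q hq => (Finset.mem_filter.1 hq).1
    · exact fun x ⟨hx, hxT⟩ q hq => Finset.mem_filter.2 ⟨hxT hq, hx q hq⟩
  · refine Or.inl fun x hx hxT => h ?_
    obtain ⟨q, hq⟩ := x.nonempty
    exact ⟨q, Finset.mem_filter.2 ⟨hxT hq, hx q hq⟩⟩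

/-- The inclusion of the sieve. -/
def sieveι : nerve (sieve A) ⟶ nerve (P n.len) :=
  nmap ⟨Subtype.val, fun _ _ h => h⟩

lemma range_sieveι : SSet.Subcomplex.range (sieveι A) = vertsIn (sieve A) := by
  apply le_antisymm
  · rintro k σ ⟨w, rfl⟩ j
    exact (w.obj j).2
  · intro k σ hσ
    have hm : Monotone fun j => (⟨σ.obj j, hσ j⟩ : sieve A) := fun _ _ h => σ.monotone h
    exact ⟨hm.functor, nerve.ext_of_isThin rfl⟩

instance : Mono (sieveι A) := by
  have : ∀ k, Mono ((sieveι A).app k) := fun k => by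
    rw [mono_iff_injective]
    intro a b h
    refine nerve.ext_of_isThin (funext fun j => Subtype.ext ?_)
    exact congrArg (fun w : (nerve (P n.len)).obj k => w.obj j) h
  exact NatTrans.mono_of_mono_app _

lemma range_kappaOf₂_sub :
    SSet.Subcomplex.range (kappaOf₂ (A.ι ≫ (deltaIso n).hom)) = vertsIn (sieve A) := by
  rw [range_kappaOf, faces_eq_chainsIn _ _ (range_kappaOf _)]
  rfl

instance : Mono (kappaOf₂ (A.ι ≫ (deltaIso n).hom)) :=
  have := mono_kappaOf (A.ι ≫ (deltaIso n).hom)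
  mono_kappaOf _

/-- `Sd² A ≅ nerve (sieve A)`. -/
def sd2SubIso : SSet.sd.obj (SSet.sd.obj A.toSSet) ≅ nerve (sieve A) :=
  asIso (SSet.Subcomplex.toRange (kappaOf₂ (A.ι ≫ (deltaIso n).hom))) ≪≫
    SSet.Subcomplex.eqToIso ((range_kappaOf₂_sub A).trans (range_sieveι A).symm) ≪≫
      (asIso (SSet.Subcomplex.toRange (sieveι A))).symm

@[reassoc]
lemma sd2SubIso_hom_ι :
    (sd2SubIso A).hom ≫ sieveι A = SSet.sd.map (SSet.sd.map A.ι) ≫ (sd2Iso n).hom := by
  have h : inv (SSet.Subcomplex.toRange (sieveι A)) ≫ sieveι A =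
      (SSet.Subcomplex.range (sieveι A)).ι := by
    rw [IsIso.inv_comp_eq]
    exact (SSet.Subcomplex.toRange_ι _).symm
  simp only [sd2SubIso, Iso.trans_hom, Iso.symm_hom, asIso_inv, asIso_hom, Category.assoc, h,
    SSet.Subcomplex.eqToIso_hom, SSet.Subcomplex.homOfLE_ι, SSet.Subcomplex.toRange_ι, sd2Iso]
  rw [← kappaOf_comp, ← kappaOf_comp]

/-- `Sd²` of the inclusion of a subcomplex of a simplex is the inclusion of the sieve. -/
def sd2ArrowIso :
    Arrow.mk (SSet.sd.map (SSet.sd.map A.ι)) ≅ Arrow.mk (sieveι A) :=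
  Arrow.isoMk (sd2SubIso A) (sd2Iso n) (sd2SubIso_hom_ι A)

/-- `Sd²` preserves the inclusions of subcomplexes of simplices. -/
instance mono_sd2_map : Mono (SSet.sd.map (SSet.sd.map A.ι)) := by
  rw [show SSet.sd.map (SSet.sd.map A.ι) =
      ((sd2SubIso A).hom ≫ sieveι A) ≫ (sd2Iso n).inv by simp [sd2SubIso_hom_ι]]
  infer_instance

end

end Vale.Agent.P213.Sd2
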