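import Vale.Agent.P213.Main.SSetGoals
import Vale.Agent.P213.Sd2.Simplex

/-!
# `sd²` of the generating (trivial) cofibrations
-/

open CategoryTheory Opposite Simplicial
open scoped SSet.modelCategoryQuillen

namespace Vale.Agent.P213.Sd2

lemma isGoodSieve_sieve {n : SimplexCategory} (A : (SSet.stdSimplex.{0}.obj n).Subcomplex) :
    IsGoodSieve (sieve A) :=
  ⟨fun _ _ h hy => isLowerSet_sieve A h hy, fun T _ =>
    (sieve_max A T).imp_right fun ⟨M, ⟨hM, hMT⟩, hmax⟩ =>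
      ⟨M, hM, hMT, fun _ hx hxT => hmax ⟨hx, hxT⟩⟩⟩

lemma exists_goodSieve {n : SimplexCategory} (A : (SSet.stdSimplex.{0}.obj n).Subcomplex) :
    ∃ (P : Type) (_ : PartialOrder P) (S : Set P), Finite P ∧ IsGoodSieve S ∧
      Nonempty (Arrow.mk (SSet.sd.map (SSet.sd.map A.ι)) ≅ Arrow.mk (nerveIncl S)) :=
  ⟨P n.len, inferInstance, sieve A, inferInstance, isGoodSieve_sieve A, ⟨sd2ArrowIso A⟩⟩

theorem sd2Goal : Sd2Goal := by
  intro A B i hi
  rcases hi with hi | hi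
  · obtain ⟨n⟩ := hi
    exact exists_goodSieve (SSet.boundary.{0} n)
  · simp only [SSet.modelCategoryQuillen.J, MorphismProperty.iSup_iff] at hi
    obtain ⟨n, ⟨k⟩⟩ := hi
    exact exists_goodSieve (SSet.horn.{0} (n + 1) k)

end Vale.Agent.P213.Sd2
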