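import Mathlib.AlgebraicTopology.SimplicialSet.Monomorphisms
import Vale.Agent.P213.Main.SSetGoals
import Vale.Agent.P213.Sd2.Simplex

/-!
# Subdivision preserves monomorphisms
-/

open CategoryTheory CategoryTheory.Limits MorphismProperty Simplicial
open scoped SSet.modelCategoryQuillen

namespace Vale.Agent.P213.Sd2

/-- The morphisms whose subdivision is a monomorphism. -/
abbrev sdMonos : MorphismProperty SSet.{0} := (monomorphisms SSet.{0}).inverseImage SSet.sd.{0}

lemma sd_map_subcomplex_mono {n : SimplexCategory} (A : (SSet.stdSimplex.{0}.obj n).Subcomplex) :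
    Mono (SSet.sd.map A.ι) := by
  have := mono_kappaOf (A.ι ≫ (deltaIso n).hom)
  exact mono_of_mono_fac (kappaOf_comp A.ι (deltaIso n).hom).symm

instance : sdMonos.IsStableUnderCobaseChange where
  of_isPushout sq h := IsStableUnderCobaseChange.of_isPushout (P := monomorphisms SSet.{0})
    (sq.map SSet.sd) h

instance : IsStableUnderCoproducts.{0} sdMonos where
  isStableUnderCoproductsOfShape J :=
    ⟨fun X₁ X₂ c₁ c₂ h₁ h₂ f hf φ hφ =>
      IsStableUnderColimitsOfShape.condition (W := monomorphisms SSet.{0})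
        (X₁ ⋙ SSet.sd) (X₂ ⋙ SSet.sd) (SSet.sd.mapCocone c₁) (SSet.sd.mapCocone c₂)
        (isColimitOfPreserves SSet.sd h₁) (isColimitOfPreserves SSet.sd h₂)
        (Functor.whiskerRight f SSet.sd) (fun j => hf j) (SSet.sd.map φ) (fun j => by
          simp [← Functor.map_comp, hφ j])⟩

theorem sdMonoGoal : SdMonoGoal := by
  intro A B i hi
  have hI : (coproducts.{0} SSet.modelCategoryQuillen.I.{0}).pushouts ≤ sdMonos := by
    simp only [pushouts_le_iff, coproducts_le_iff]
    rintro _ _ _ ⟨n⟩
    exact sd_map_subcomplex_mono _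
  have : PreservesColimitsOfSize.{0, 0} SSet.sd.{0} :=
    SSet.sdExAdjunction.leftAdjoint_preservesColimits
  have : PreservesWellOrderContinuousOfShape ℕ SSet.sd.{0} := ⟨fun _ _ => inferInstance⟩
  have h := ((SSet.relativeCellComplexOfMono i).transfiniteCompositionOfShape'
    (I := SSet.modelCategoryQuillen.I) (fun _ => ⟨_⟩)).ofLE hI
  exact (monomorphisms SSet.{0}).transfiniteCompositionsOfShape_le ℕ _ h.map.mem

end Vale.Agent.P213.Sd2
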